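import Vale.Agent.P022.H138.L3.Fill
import Vale.Agent.P022.H447.L3.Rho

/-!
# P022-L3, chapter G, row [ABS-FIN]: `AbsStmt` from its blocks
-/

noncomputable section

open HahnSeries NumberField Vale.Agent.P022.H542.L3

namespace Vale.Agent.P022.H916.L3

/-- [UNR] -/
def UnrStmt : Prop := ∀ (G : Geo 6) (n ℓ : ℕ), ℓ.Prime → ¬ ℓ ∣ 6 → ℓ ≠ 2 →
  ∀ O : ValuationSubring ℂ, O.valuation (ℓ : ℂ) < 1 → ∀ σ : ℂ ≃+* ℂ,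
  (∀ z ∈ O, IsAlgebraic ℚ z → O.valuation (σ z - z) < 1) →
  ∀ (f : G.Kˣ) (hf : f ∈ G.U (2 ^ n)), (∀ k, IsAlgebraic ℚ ((G.e (f : G.K)).coeff k)) →
  G.act (2 ^ n) σ (G.cl _ f hf) = G.cl _ f hf

/-- [ES] -/
def EsStmt : Prop := ∀ (G : Geo 6) (H : Hk G) (n ℓ : ℕ) (hℓ : ℓ.Prime) (hB : ¬ ℓ ∣ 6), ℓ ≠ 2 →
  ∀ O : ValuationSubring ℂ, O.valuation (ℓ : ℂ) < 1 → ∀ σ : ℂ ≃+* ℂ,
  (∀ z ∈ O, IsAlgebraic ℚ z → σ z ∈ O ∧ O.valuation (σ z - z ^ ℓ) < 1) →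
  (∀ z ∈ O, IsAlgebraic ℚ z → σ.symm z ∈ O ∧ O.valuation (z - σ.symm z ^ ℓ) < 1) →
  ∀ (f : G.Kˣ) (hf : f ∈ G.U (2 ^ n)), (∀ k, IsAlgebraic ℚ ((G.e (f : G.K)).coeff k)) →
  (∀ k, IsAlgebraic ℚ ((G.e (H.D ℓ (f : G.K))).coeff k)) →
  G.cl _ (H.T ℓ f) (H.TU ℓ hℓ hB n f hf) = G.act (2 ^ n) σ (G.cl _ f hf) *
    (G.act (2 ^ n) σ⁻¹ (G.cl _ (G.gu (H.D ℓ) f) (G.gu_mem_U _ hf))) ^ ℓ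

/-- [COM] -/
def TcomStmt : Prop := ∀ (G : Geo 6) (H : Hk G) (ℓ : ℕ), ℓ.Prime → ¬ ℓ ∣ 6 →
  ∀ (σ : ℂ ≃+* ℂ) (f : G.Kˣ), H.T ℓ (G.su σ f) = G.su σ (H.T ℓ f)

/-- [COM] -/
def DcomStmt : Prop := ∀ (G : Geo 6) (H : Hk G) (ℓ : ℕ), ℓ.Prime → ¬ ℓ ∣ 6 →
  ∀ (σ : ℂ ≃+* ℂ) (x : G.K), G.s σ (H.D ℓ x) = H.D ℓ (G.s σ x)

/-- [COM] (b) -/
def AlgDStmt : Prop := ∀ (G : Geo 6) (H : Hk G) (ℓ : ℕ), ℓ.Prime → ¬ ℓ ∣ 6 → ∀ x : G.K,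
  (∀ k, IsAlgebraic ℚ ((G.e x).coeff k)) → ∀ k, IsAlgebraic ℚ ((G.e (H.D ℓ x)).coeff k)

/-- [2G] -/
def TwoGStmt : Prop := ∀ (G : Geo 6) (n : ℕ), Finite (G.V (2 ^ n)) → ∀ σ : ℂ ≃+* ℂ, ∃ k : ℕ,
  G.act (2 ^ n) σ ^ 2 ^ k = 1

/-- [FD] -/
def FdStmt : Prop := ∀ (G : Geo 6) (N : ℕ), 0 < N →
  (∀ f0 : G.Kˣ, f0 ∈ G.U N → ∀ m : ℕ,
    FiniteDimensional ℂ (H447.L3.Mm G N m (f0 : G.K) f0.ne_zero)) ∧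
  ∀ f0 : G.Kˣ, f0 ∈ G.U N → ∃ m0 : ℕ, ∀ m : ℕ, m0 ≤ m →
    ∃ x ∈ H447.L3.Mm G N m (f0 : G.K) f0.ne_zero, x ≠ 0

/-- [PLACE] -/
def PlaceStmt : Prop := ∀ (i : Qb →+* ℂ) (ℓ : ℕ) (P : Ideal (𝓞 Qb)), ℓ.Prime → P.IsPrime →
  (ℓ : 𝓞 Qb) ∈ P → ∃ O : ValuationSubring ℂ, O.valuation (ℓ : ℂ) < 1 ∧
    (∀ (g : GQ) (σ : ℂ ≃+* ℂ), (∀ x : 𝓞 Qb, g • x - x ^ ℓ ∈ P) → (∀ a, σ (i a) = i (g a)) →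
      (∀ z ∈ O, IsAlgebraic ℚ z → σ z ∈ O ∧ O.valuation (σ z - z ^ ℓ) < 1) ∧
      (∀ z ∈ O, IsAlgebraic ℚ z → σ.symm z ∈ O ∧ O.valuation (z - σ.symm z ^ ℓ) < 1)) ∧
    (∀ (g : GQ) (σ : ℂ ≃+* ℂ), (∀ x : 𝓞 Qb, g • x - x ∈ P) → (∀ a, σ (i a) = i (g a)) →
      ∀ z ∈ O, IsAlgebraic ℚ z → O.valuation (σ z - z) < 1)

theorem good6 {ℓ : ℕ} (h : P022.L3.Good 3 ℓ) : ℓ.Prime ∧ ¬ ℓ ∣ 6 ∧ ℓ ≠ 2 := by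
  refine ⟨h.1, by simpa using h.2, ?_⟩
  rintro rfl
  exact h.2 (by norm_num)

/-- **[ABS-FIN]** -/
theorem abs_of (hFD : FdStmt) (hP : PlaceStmt) (hU : UnrStmt) (hE : EsStmt) (hT : TcomStmt)
    (hD : DcomStmt) (hA : AlgDStmt) (h2 : TwoGStmt) : P022.L3.AbsStmt := by
  intro G H n hfin
  have hAlg : Algebra.IsAlgebraic ℚ Qb := AlgebraicClosure.isAlgebraic ℚ
  have i : Qb →ₐ[ℚ] ℂ := IsAlgClosed.lift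
  have hN : 0 < 2 ^ n := pow_pos two_pos n
  obtain ⟨ρ, h1, hopen, hrep⟩ := H447.L3.rho (G := G) hN (hFD G _ hN).1 (hFD G _ hN).2 i
  choose ext hext using fun τ : GQ => H694.exists_lift i τ
  have hρ : ∀ x : GQ, ρ x = G.act (2 ^ n) (ext x : ℂ ≃+* ℂ) := fun x =>
    MulEquiv.ext fun v => h1 (ext x) x (hext x) v
  have hσ : ∀ (x : GQ) (a : Qb), (ext x : ℂ ≃+* ℂ) ((i : Qb →+* ℂ) a) = (i : Qb →+* ℂ) (x a) :=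
    fun x a => hext x a
  have halg : ∀ v : G.V (2 ^ n), ∃ (f : G.Kˣ) (hf : f ∈ G.U (2 ^ n)), G.cl _ f hf = v ∧
      ∀ k, IsAlgebraic ℚ ((G.e (f : G.K)).coeff k) := by
    intro v
    obtain ⟨f, hf, -, g, hg⟩ := hrep v
    refine ⟨f, f.2, hf, fun k => ?_⟩
    rw [← hg]
    exact (Algebra.IsAlgebraic.isAlgebraic (g k)).algHom i
  have hTV : ∀ ℓ, ∀ hℓ : P022.L3.Good 3 ℓ, ∀ f g : G.U (2 ^ n), (g : G.Kˣ) = H.T ℓ f →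
      (g : G.V (2 ^ n)) = G.onV (2 ^ n) (H.T ℓ)
        (H.TU ℓ hℓ.1 (good6 hℓ).2.1 n) (f : G.V (2 ^ n)) := by
    intro ℓ hℓ f g hg
    have e : g = ⟨H.T ℓ f, H.TU ℓ hℓ.1 (good6 hℓ).2.1 n f f.2⟩ := Subtype.ext hg
    rw [e]
    rfl
  have hDV : ∀ ℓ : ℕ, ∀ f h : G.U (2 ^ n), ((h : G.Kˣ) : G.K) = H.D ℓ ((f : G.Kˣ) : G.K) →
      (h : G.V (2 ^ n)) = G.onV (2 ^ n) (G.gu (H.D ℓ)).toMonoidHom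
        (fun _ hf => G.gu_mem_U (H.D ℓ) hf) (f : G.V (2 ^ n)) := by
    intro ℓ f h hh
    have e : h = ⟨G.gu (H.D ℓ) f, G.gu_mem_U (H.D ℓ) f.2⟩ := Subtype.ext (Units.ext hh)
    rw [e]
    rfl
  refine ⟨ρ, hopen, ?_, ?_, ?_, ?_, ?_⟩
  · intro x
    obtain ⟨k, hk⟩ := h2 G n hfin (ext x : ℂ ≃+* ℂ)
    exact ⟨k, by rw [hρ, hk]⟩
  · intro ℓ hℓ P hPp hlP x hx
    obtain ⟨O, hO, -, hin⟩ := hP (i : Qb →+* ℂ) ℓ P hℓ.1 hPp hlP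
    refine MulEquiv.ext fun v => ?_
    obtain ⟨f, hf, rfl, ha⟩ := halg v
    rw [hρ]
    exact hU G n ℓ hℓ.1 (good6 hℓ).2.1 (good6 hℓ).2.2 O hO _ (hin x _ hx (hσ x)) f hf ha
  · intro ℓ hℓ x hx f g h hg hh
    obtain ⟨P, hPp, hlP, hx⟩ := hx
    obtain ⟨O, hO, hfr, -⟩ := hP (i : Qb →+* ℂ) ℓ P hℓ.1 hPp hlP
    rw [hTV ℓ hℓ f g hg, hDV ℓ f h hh]
    obtain ⟨f', hf', he, ha⟩ := halg (f : G.V (2 ^ n))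
    rw [← he, map_inv, hρ, ← map_inv]
    exact hE G H n ℓ hℓ.1 (good6 hℓ).2.1 (good6 hℓ).2.2 O hO _ (hfr x _ hx (hσ x)).1
      (hfr x _ hx (hσ x)).2 f' hf' ha (hA G H ℓ hℓ.1 (good6 hℓ).2.1 _ ha)
  · intro ℓ hℓ x f g f' g' hg hg' hff
    rw [hTV ℓ hℓ f' g' hg', hff, hTV ℓ hℓ f g hg, hρ]
    obtain ⟨f1, hf1, he⟩ := G.cl_surj (f : G.V (2 ^ n))
    rw [← he]
    change G.cl _ (H.T ℓ (G.su (ext x : ℂ ≃+* ℂ) f1)) _ =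
      G.cl _ (G.su (ext x : ℂ ≃+* ℂ) (H.T ℓ f1)) _
    simp only [hT G H ℓ hℓ.1 (good6 hℓ).2.1]
  · intro ℓ hℓ x f h f' h' hh hh' hff
    rw [hDV ℓ f' h' hh', hff, hDV ℓ f h hh, hρ]
    obtain ⟨f1, hf1, he⟩ := G.cl_surj (f : G.V (2 ^ n))
    rw [← he]
    change G.cl _ (G.gu (H.D ℓ) (G.su (ext x : ℂ ≃+* ℂ) f1)) _ =
      G.cl _ (G.su (ext x : ℂ ≃+* ℂ) (G.gu (H.D ℓ) f1)) _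
    have e : G.gu (H.D ℓ) (G.su (ext x : ℂ ≃+* ℂ) f1) =
        G.su (ext x : ℂ ≃+* ℂ) (G.gu (H.D ℓ) f1) :=
      Units.ext (hD G H ℓ hℓ.1 (good6 hℓ).2.1 _ _).symm
    simp only [e]

end Vale.Agent.P022.H916.L3
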