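import Vale.Agent.P022.H542.L3.Geo
import Vale.Agent.P022.H964.L3.RootLS
import Vale.Agent.P022.H601.Kum

/-!
# P022-L3, chapter G, row [CUSP]: places of a `2`-extension over a given place

`K / F` Galois with group a finite `2`-group, `lam : F → ℂ((t))`: after `t ↦ t ^ (2 ^ j)` the place
`lam` extends to `K`.
-/

noncomputable section

open HahnSeries Vale.Agent.P022.H542.L3
open scoped IntermediateField

namespace Vale.Agent.P022.H916.L3

theorem algMapLS (a : ℂ) : algebraMap ℂ LS a = C a := by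
  rw [LaurentSeries.algebraMap_apply]

/-- `sb` as an algebra homomorphism -/
def sbA (m : ℕ) (hm : 0 < m) : LS →ₐ[ℂ] LS :=
  { sb m hm with
    commutes' := fun a => by
      change sb m hm (algebraMap ℂ LS a) = algebraMap ℂ LS a
      rw [algMapLS, sb_C] }

theorem sbA_apply (m : ℕ) (hm : 0 < m) (x : LS) : sbA m hm x = sb m hm x := rfl

theorem sb_sb (m n : ℕ) (hm : 0 < m) (hn : 0 < n) (x : LS) :
    sb m hm (sb n hn x) = sb (m * n) (Nat.mul_pos hm hn) x := by
  ext i
  by_cases h : (m : ℤ) ∣ i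
  · obtain ⟨k, rfl⟩ := h
    rw [coeff_sb_mul]
    by_cases h' : (n : ℤ) ∣ k
    · obtain ⟨l, rfl⟩ := h'
      rw [coeff_sb_mul]
      have e : (m : ℤ) * (n * l) = ((m * n : ℕ) : ℤ) * l := by push_cast; ring
      rw [e, coeff_sb_mul]
    · rw [coeff_sb_of_not_dvd _ _ _ _ h', coeff_sb_of_not_dvd]
      intro h2
      apply h'
      obtain ⟨l, hl⟩ := h2
      refine ⟨l, ?_⟩
      have hm' : (m : ℤ) ≠ 0 := by exact_mod_cast hm.ne'
      apply mul_left_cancel₀ hm'
      rw [hl]
      push_cast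
      ring
  · rw [coeff_sb_of_not_dvd _ _ _ _ h, coeff_sb_of_not_dvd]
    intro h2
    apply h
    refine dvd_trans ?_ h2
    push_cast
    exact dvd_mul_right _ _

theorem sb_congr {m n : ℕ} (h : m = n) (hm : 0 < m) (hn : 0 < n) (x : LS) :
    sb m hm x = sb n hn x := by
  subst h
  rfl

theorem sb_one (x : LS) : sb 1 Nat.one_pos x = x := by
  ext i
  have h := coeff_sb_mul 1 Nat.one_pos x i
  rw [Nat.cast_one, one_mul] at h
  exact h

theorem order_sb (m : ℕ) (hm : 0 < m) (x : LS) : (sb m hm x).order = m * x.order := by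
  by_cases hx : x = 0
  · subst hx
    rw [map_zero, HahnSeries.order_zero, mul_zero]
  have hy : sb m hm x ≠ 0 := (map_ne_zero _).2 hx
  have hm' : (0 : ℤ) < m := by exact_mod_cast hm
  apply le_antisymm
  · apply HahnSeries.order_le_of_coeff_ne_zero
    rw [coeff_sb_mul]
    exact HahnSeries.coeff_order_eq_zero.not.2 hx
  · have h1 : (sb m hm x).coeff (sb m hm x).order ≠ 0 := HahnSeries.coeff_order_eq_zero.not.2 hy
    by_cases h : (m : ℤ) ∣ (sb m hm x).order
    · obtain ⟨k, hk⟩ := h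
      rw [hk] at h1 ⊢
      rw [coeff_sb_mul] at h1
      exact mul_le_mul_of_nonneg_left (HahnSeries.order_le_of_coeff_ne_zero h1) hm'.le
    · exact absurd (coeff_sb_of_not_dvd m hm x _ h) h1

/-- a nontrivial `2`-extension contains a square root -/
theorem exists_sqrt_top {F K : Type} [Field F] [Field K] [Algebra F K] [FiniteDimensional F K]
    [IsGalois F K] (h2 : (2 : F) ≠ 0) (hP : IsPGroup 2 (K ≃ₐ[F] K))
    (h1 : Module.finrank F K ≠ 1) :
    ∃ s : K, (∃ a : F, s ^ 2 = algebraMap F K a) ∧ s ∉ (⊥ : IntermediateField F K) := by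
  by_cases h : ∀ χ : (K ≃ₐ[F] K) →* Multiplicative (ZMod 2), χ = 1
  · exfalso
    have h3 := H601.gen_of_chars hP (∅ : Set (K ≃ₐ[F] K)) fun χ _ => h χ
    rw [Subgroup.closure_empty] at h3
    apply h1
    have h4 : Nat.card (K ≃ₐ[F] K) = Module.finrank F K := IsGalois.card_aut_eq_finrank F K
    rw [← h4]
    have : Subsingleton (K ≃ₐ[F] K) := (Subgroup.subsingleton_iff.1 (subsingleton_of_bot_eq_top h3))
    exact Nat.card_unique
  · push Not at h
    obtain ⟨χ, hχ⟩ := h
    obtain ⟨s, hs0, hs, hsx⟩ := H601.exists_sqrt h2 χ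
    refine ⟨s, hs, fun hmem => hχ ?_⟩
    rw [IntermediateField.mem_bot] at hmem
    obtain ⟨b, hb⟩ := hmem
    ext x
    by_contra hx
    have h5 := (hsx x).2 hx
    rw [← hb, AlgEquiv.commutes] at h5
    have h6 : (2 : K) * algebraMap F K b = 0 := by linear_combination h5
    rcases mul_eq_zero.1 h6 with h7 | h7
    · apply h2
      apply (algebraMap F K).injective
      rw [map_ofNat, map_zero, h7]
    · exact hs0 (by rw [← hb, h7])

theorem cusp_aux (K : Type) [Field K] [Algebra ℂ K] (n : ℕ) :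
    ∀ (F : Type) [Field F] [Algebra ℂ F] [Algebra F K] [IsScalarTower ℂ F K]
      [FiniteDimensional F K] [IsGalois F K], IsPGroup 2 (K ≃ₐ[F] K) →
      Module.finrank F K = n → ∀ lam : F →ₐ[ℂ] LS,
      ∃ (j : ℕ) (θ : K →ₐ[ℂ] LS), ∀ x : F,
        θ (algebraMap F K x) = sb (2 ^ j) (pow_pos two_pos j) (lam x) := by
  induction n using Nat.strong_induction_on with
  | _ n ih =>
    intro F _ _ _ _ _ _ hP hn lam
    have hF2 : (2 : F) ≠ 0 := by
      have : (algebraMap ℂ F) 2 ≠ 0 := (map_ne_zero _).2 two_ne_zero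
      rwa [map_ofNat] at this
    by_cases h1 : Module.finrank F K = 1
    · have hb : Function.Bijective (algebraMap F K) :=
        Algebra.bijective_algebraMap_iff.2
          (Subalgebra.bot_eq_top_iff_finrank_eq_one.2 h1).symm
      let e : F ≃ₐ[ℂ] K := AlgEquiv.ofBijective (IsScalarTower.toAlgHom ℂ F K) hb
      refine ⟨0, lam.comp e.symm.toAlgHom, fun x => ?_⟩
      have h2 : e.symm (algebraMap F K x) = x := by
        apply e.injective
        rw [AlgEquiv.apply_symm_apply]
        rfl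
      change lam (e.symm (algebraMap F K x)) = _
      rw [h2]
      exact ((sb_congr (by norm_num) _ Nat.one_pos _).trans (sb_one _)).symm
    · obtain ⟨s, ⟨a, ha⟩, hs⟩ := exists_sqrt_top hF2 hP h1
      let F1 : IntermediateField F K := IntermediateField.adjoin F {s}
      have hsF : s ∈ F1 := IntermediateField.mem_adjoin_simple_self F s
      let lam1 : F →ₐ[ℂ] LS := (sbA 2 two_pos).comp lam
      obtain ⟨μ, hμ⟩ := H964.L3.ext_roots (k := ℂ) (K := F) (L := F1) lam1 2 two_pos
        {(⟨s, hsF⟩ : F1)} (by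
          intro t ht
          rw [Set.mem_singleton_iff] at ht
          subst ht
          refine ⟨a, ?_, ?_⟩
          · apply Subtype.ext
            change s ^ 2 = _
            rw [ha]
            rfl
          · change ((2 : ℕ) : ℤ) ∣ (sb 2 two_pos (lam a)).order
            rw [order_sb]
            exact dvd_mul_right _ _) (by
          apply IntermediateField.lift_injective F1
          rw [IntermediateField.lift_top]
          exact IntermediateField.lift_adjoin_simple F F1 (⟨s, hsF⟩ : F1))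
      have hlt : Module.finrank F1 K < n := by
        rw [← hn, ← Module.finrank_mul_finrank F F1 K]
        have h4 : 0 < Module.finrank F1 K := Module.finrank_pos
        have h5 : 1 < Module.finrank F F1 := by
          have h6 : 0 < Module.finrank F F1 := Module.finrank_pos
          by_contra h7
          have h8 : Module.finrank F F1 = 1 := by omega
          have h9 : F1 = ⊥ := IntermediateField.finrank_eq_one_iff.1 h8
          exact hs (h9 ▸ hsF)
        nlinarith
      have hP1 : IsPGroup 2 (K ≃ₐ[F1] K) := by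
        have e := IntermediateField.fixingSubgroupEquiv F1
        exact (hP.to_subgroup _).of_equiv e
      have : IsScalarTower ℂ F1 K := IsScalarTower.of_algebraMap_eq fun x => rfl
      obtain ⟨j, θ, hθ⟩ := ih _ hlt F1 hP1 rfl μ
      refine ⟨j + 1, θ, fun x => ?_⟩
      rw [IsScalarTower.algebraMap_apply F F1 K, hθ, hμ]
      change sb (2 ^ j) _ (sb 2 two_pos (lam x)) = _
      rw [sb_sb]
      exact sb_congr (pow_succ 2 j).symm _ _ _

/-- **[CUSP]** -/
theorem cusp {F K : Type} [Field F] [Field K] [Algebra ℂ F] [Algebra ℂ K] [Algebra F K]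
    [IsScalarTower ℂ F K] [FiniteDimensional F K] [IsGalois F K]
    (hP : IsPGroup 2 (K ≃ₐ[F] K)) (lam : F →ₐ[ℂ] LS) :
    ∃ (j : ℕ) (θ : K →ₐ[ℂ] LS), ∀ x : F,
      θ (algebraMap F K x) = sb (2 ^ j) (pow_pos two_pos j) (lam x) :=
  cusp_aux K _ F hP rfl lam

/-! ### places of a `Geo` -/

theorem sb_single (m : ℕ) (hm : 0 < m) (k : ℤ) (a : ℂ) :
    sb m hm (single k a) = single ((m : ℤ) * k) a := by
  have hm' : (m : ℤ) ≠ 0 := by exact_mod_cast hm.ne'
  ext i
  by_cases h : (m : ℤ) ∣ i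
  · obtain ⟨l, rfl⟩ := h
    rw [coeff_sb_mul, HahnSeries.coeff_single, HahnSeries.coeff_single]
    by_cases hl : l = k
    · rw [if_pos hl, if_pos (by rw [hl])]
    · rw [if_neg hl, if_neg fun h => hl (mul_left_cancel₀ hm' h)]
  · rw [coeff_sb_of_not_dvd _ _ _ _ h, HahnSeries.coeff_single, if_neg]
    rintro rfl
    exact h (dvd_mul_right _ _)

/-- an element algebraic over `ℂ` is a constant -/
theorem const_of_algebraic {L : Type} [Field L] [Algebra ℂ L] (y : L) (h : IsAlgebraic ℂ y) :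
    ∃ c : ℂ, algebraMap ℂ L c = y := by
  have h1 : IsIntegral ℂ y := h.isIntegral
  have h2 : (minpoly ℂ y).degree = 1 :=
    IsAlgClosed.degree_eq_one_of_irreducible ℂ (minpoly.irreducible h1)
  exact minpoly.mem_range_of_degree_eq_one ℂ y h2

theorem transc_LS (y : LS) (n : ℤ) (hn : n ≠ 0) (h : y.coeff n ≠ 0) : Transcendental ℂ y := by
  intro ha
  obtain ⟨c, hc⟩ := const_of_algebraic y ha
  rw [algMapLS] at hc
  apply h
  rw [← hc, HahnSeries.C_apply, HahnSeries.coeff_single, if_neg hn]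

theorem transc_p {B : ℕ} (G : Geo B) : Transcendental ℂ G.p := by
  intro ha
  obtain ⟨n, hn, -, -, h0⟩ := G.lead
  exact transc_LS (G.e G.p) n hn h0 (ha.algHom G.e)

/-- every transcendental series is, after `t ↦ t ^ (2 ^ j)`, the value of `p` at a place of `K` -/
theorem exists_place {B : ℕ} (G : Geo B) (y : LS) (hy : Transcendental ℂ y) :
    ∃ (j : ℕ) (θ : G.K →ₐ[ℂ] LS), θ G.p = sb (2 ^ j) (pow_pos two_pos j) y := by
  have hf : FiniteDimensional ℂ⟮G.p⟯ G.K := G.fin
  have hg : IsGalois ℂ⟮G.p⟯ G.K := G.gal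
  let e1 := RatFunc.algEquivOfTranscendental G.p (transc_p G)
  let e2 := RatFunc.algEquivOfTranscendental y hy
  let lam : ℂ⟮G.p⟯ →ₐ[ℂ] LS := (IntermediateField.val ℂ⟮y⟯).comp (e1.symm.trans e2).toAlgHom
  obtain ⟨j, θ, hθ⟩ := cusp G.two lam
  refine ⟨j, θ, ?_⟩
  have h := hθ (IntermediateField.AdjoinSimple.gen ℂ G.p)
  rw [IntermediateField.AdjoinSimple.algebraMap_gen] at h
  rw [h]
  congr 1
  change ((e2 (e1.symm (IntermediateField.AdjoinSimple.gen ℂ G.p)) : ℂ⟮y⟯) : LS) = y
  have h2 : e1.symm (IntermediateField.AdjoinSimple.gen ℂ G.p) = RatFunc.X := by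
    rw [AlgEquiv.symm_apply_eq]
    apply Subtype.ext
    rw [IntermediateField.AdjoinSimple.coe_gen]
    exact (RatFunc.algEquivOfTranscendental_X G.p (transc_p G)).symm
  rw [h2]
  exact RatFunc.algEquivOfTranscendental_X y hy

/-- **the cusps**: `CuspEx` of row [FD] -/
theorem cuspEx {B : ℕ} (G : Geo B) :
    (∀ s ∈ G.S, ∃ θ : G.K →ₐ[ℂ] LS, ∃ e : ℕ, 1 ≤ e ∧
      θ G.p = C ((s : ℚ) : ℂ) + single (e : ℤ) 1) ∧
    ∃ θ : G.K →ₐ[ℂ] LS, ∃ e : ℕ, 1 ≤ e ∧ θ G.p = single (-(e : ℤ)) 1 := by
  constructor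
  · intro s _
    obtain ⟨j, θ, hθ⟩ := exists_place G (C ((s : ℚ) : ℂ) + single (1 : ℤ) 1)
      (transc_LS _ 1 one_ne_zero (by
        rw [HahnSeries.coeff_add, HahnSeries.C_apply, HahnSeries.coeff_single,
          HahnSeries.coeff_single, if_neg one_ne_zero, if_pos rfl, zero_add]
        exact one_ne_zero))
    refine ⟨θ, 2 ^ j, Nat.one_le_two_pow, ?_⟩
    rw [hθ, map_add, sb_C, sb_single, mul_one]
  · obtain ⟨j, θ, hθ⟩ := exists_place G (single (-1 : ℤ) 1)
      (transc_LS _ (-1) (by norm_num) (by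
        rw [HahnSeries.coeff_single, if_pos rfl]
        exact one_ne_zero))
    refine ⟨θ, 2 ^ j, Nat.one_le_two_pow, ?_⟩
    rw [hθ, sb_single, mul_neg, mul_one]

end Vale.Agent.P022.H916.L3
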