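import Vale.Agent.P022.H542.L3.Act
import Vale.Agent.P022.H964.L3.Orb

/-!
# P022-L3, chapter G, row [COM]: the coefficientwise action commutes with `D` and `T`
-/

noncomputable section

open HahnSeries Vale.Agent.P022.H542.L3
open scoped IntermediateField

namespace Vale.Agent.P022.H916.L3

variable {B : ℕ} [NeZero B] (G : Geo B)

theorem s_comm (g : G.K ≃ₐ[ℂ⟮G.p⟯] G.K) (hg : ∀ r ∈ G.R, g r ∈ Subfield.closure G.R)
    (σ : ℂ ≃+* ℂ) (x : G.K) : G.s σ (g x) = g (G.s σ x) := by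
  have hx : x ∈ IntermediateField.adjoin ℂ G.R := by rw [G.gen]; trivial
  have hc : ∀ a : ℂ, g (algebraMap ℂ G.K a) = algebraMap ℂ G.K a := fun a => by
    rw [IsScalarTower.algebraMap_apply ℂ ℂ⟮G.p⟯ G.K]
    exact g.commutes _
  induction hx using IntermediateField.adjoin_induction with
  | mem r hr => rw [G.s_closure σ (hg r hr), G.s_R σ hr]
  | algebraMap a => rw [hc, G.s_alg, hc]
  | add x y _ _ h1 h2 => rw [map_add, map_add, h1, h2, map_add, map_add]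
  | inv x _ h1 => rw [map_inv₀, map_inv₀, h1, map_inv₀, map_inv₀]
  | mul x y _ _ h1 h2 => rw [map_mul, map_mul, h1, h2, map_mul, map_mul]

theorem D_comm (H : Hk G) (ℓ : ℕ) (hℓ : ℓ.Prime) (hB : ¬ ℓ ∣ B) (σ : ℂ ≃+* ℂ) (x : G.K) :
    G.s σ (H.D ℓ x) = H.D ℓ (G.s σ x) := s_comm G (H.D ℓ) (H.Drat ℓ hℓ hB) σ x

theorem alg_of (g : G.K ≃ₐ[ℂ⟮G.p⟯] G.K) (hg : ∀ r ∈ G.R, g r ∈ Subfield.closure G.R) (x : G.K)
    (ha : ∀ k, IsAlgebraic ℚ ((G.e x).coeff k)) (k : ℤ) :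
    IsAlgebraic ℚ ((G.e (g x)).coeff k) := by
  refine H964.L3.alg_of_finite _
    (Set.Finite.subset (Set.finite_singleton ((G.e (g x)).coeff k)) ?_)
  rintro _ ⟨σ, rfl⟩
  rw [Set.mem_singleton_iff]
  have h1 : G.s (σ : ℂ ≃+* ℂ) x = x := G.e_inj (by
    rw [G.e_s]
    ext j
    rw [coeff_cm]
    have h2 : (G.e x).coeff j ∈ H964.L3.Qa := mem_algebraicClosure_iff.2 (ha j)
    exact σ.commutes (⟨_, h2⟩ : H964.L3.Qa))
  have h3 : G.s (σ : ℂ ≃+* ℂ) (g x) = g x := by rw [s_comm G g hg, h1]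
  have h4 := congrArg (fun z => (G.e z).coeff k) h3
  simp only [G.e_s, coeff_cm] at h4
  exact h4

theorem T_comm (H : Hk G) (ℓ : ℕ) (hℓ : ℓ.Prime) (hB : ¬ ℓ ∣ B) (σ : ℂ ≃+* ℂ) (f : G.Kˣ) :
    H.T ℓ (G.su σ f) = G.su σ (H.T ℓ f) := by
  obtain ⟨ζ, hζ⟩ : ∃ ζ : ℂ, IsPrimitiveRoot ζ ℓ := by
    have : NeZero ℓ := ⟨hℓ.ne_zero⟩
    exact ⟨_, Complex.isPrimitiveRoot_exp ℓ hℓ.ne_zero⟩
  have hζ' : IsPrimitiveRoot (σ ζ) ℓ := hζ.map_of_injective σ.injective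
  apply Units.ext
  apply G.e_inj
  apply (sb ℓ hℓ.pos).injective
  change sb ℓ hℓ.pos (G.e (H.T ℓ (G.su σ f) : G.K)) = sb ℓ hℓ.pos (G.e (G.s σ (H.T ℓ f : G.K)))
  rw [H.Te ℓ hℓ hB (σ ζ) hζ' (G.su σ f), G.val_su, G.e_s, G.e_s, ← cm_sb,
    H.Te ℓ hℓ hB ζ hζ f, map_mul, cm_sb, map_prod, ← D_comm G H ℓ hℓ hB, G.e_s]
  congr 1
  refine Finset.prod_congr rfl fun j _ => ?_
  ext m
  simp [map_pow, map_zpow₀]

end Vale.Agent.P022.H916.L3
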