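import Vale.Agent.P022.H452.L3.FD
import Vale.Agent.P022.H447.L3.WvDefs
import Vale.Agent.P022.H916.L3.Cusp

/-!
# P022-L3, chapter G: [FD] + [CUSP] in the letters of [WV]
-/

noncomputable section

open HahnSeries Vale.Agent.P022.H542.L3

namespace Vale.Agent.P022.H916.L3

variable {B : ℕ} (G : Geo B)

theorem mem_MM_iff (N m : ℕ) (f0 : G.Kˣ) (x : G.K) :
    x ∈ G.MM N f0 m ↔ x ∈ H447.L3.Mm G N m (f0 : G.K) f0.ne_zero := by
  rw [G.mem_MM]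
  change _ ↔ x = 0 ∨ H447.L3.Bd G m ((f0 : G.K) * x ^ N)
  by_cases hx : x = 0
  · simp [hx]
  · have h : ∀ θ : G.K →ₐ[ℂ] LS, (θ ((f0 : G.K) * x ^ N)).order =
        (N : ℤ) * (θ x).order + (θ (f0 : G.K)).order := fun θ =>
      H447.L3.order_mul_pow θ N f0.ne_zero hx
    constructor
    · rintro (h0 | ⟨h1, h2⟩)
      · exact absurd h0 hx
      · exact Or.inr ⟨fun a ha θ hθ => by rw [h]; exact h1 a ha θ hθ,
          fun θ e he => by rw [h]; exact h2 θ e he⟩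
    · rintro (h0 | ⟨h1, h2⟩)
      · exact absurd h0 hx
      · exact Or.inr ⟨fun a ha θ hθ => by rw [← h]; exact h1 a ha θ hθ,
          fun θ e he => by rw [← h]; exact h2 θ e he⟩

theorem MM_eq (N m : ℕ) (f0 : G.Kˣ) :
    G.MM N f0 m = H447.L3.Mm G N m (f0 : G.K) f0.ne_zero :=
  SetLike.ext fun x => mem_MM_iff G N m f0 x

theorem fd (N : ℕ) (hN : 0 < N) :
    (∀ f0 : G.Kˣ, f0 ∈ G.U N → ∀ m : ℕ,
      FiniteDimensional ℂ (H447.L3.Mm G N m (f0 : G.K) f0.ne_zero)) ∧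
    ∀ f0 : G.Kˣ, f0 ∈ G.U N → ∃ m0 : ℕ, ∀ m : ℕ, m0 ≤ m →
      ∃ x ∈ H447.L3.Mm G N m (f0 : G.K) f0.ne_zero, x ≠ 0 := by
  constructor
  · intro f0 _ m
    rw [← MM_eq]
    exact G.finite_MM (cuspEx G) N hN f0 m
  · intro f0 _
    obtain ⟨m0, h⟩ := G.exists_MM_ne N hN f0
    refine ⟨m0, fun m hm => ?_⟩
    rw [← MM_eq]
    exact h m hm

end Vale.Agent.P022.H916.L3
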