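import Vale.Agent.P022.H916.L3.AbsFin
import Vale.Agent.P022.H916.L3.FdPlug
import Vale.Agent.P022.H542.L3.Es
import Vale.Agent.P022.H542.L3.Unr
import Vale.Agent.P022.H916.L3.Com
import Vale.Agent.P022.H565.L3.TwoAct
import Vale.Agent.P022.H116.Place
import Vale.Agent.P022.H964.L3.KeyS
import Vale.Agent.P022.H619.L3.Chev

/-!
# P022-L3, chapter G: `AbsStmt`
-/

noncomputable section

open HahnSeries NumberField Vale.Agent.P022.H542.L3

namespace Vale.Agent.P022.H916.L3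

theorem place : PlaceStmt := by
  intro i ℓ P hℓ hP hlP
  obtain ⟨O, h0, h1, h2, h3⟩ := H116.exists_place i P hP hℓ hlP
  have conv : ∀ σ : ℂ ≃+* ℂ, ∃ σ' : ℂ ≃ₐ[ℚ] ℂ, (∀ z, σ' z = σ z) ∧ ∀ z, σ'.symm z = σ.symm z := by
    intro σ
    exact ⟨{ σ with commutes' := fun q => by simp }, fun _ => rfl, fun _ => rfl⟩
  refine ⟨O, h0, fun g σ hg hσ => ?_, fun g σ hg hσ => ?_⟩
  · obtain ⟨σ', e1, e2⟩ := conv σ
    have hσ' : ∀ a, σ' (i a) = i (g a) := fun a => by rw [e1, hσ]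
    refine ⟨fun z hz ha => ?_, fun z hz ha => ?_⟩
    · rw [← e1]
      exact H116.frob h1 h2 h3 hg hσ' hz ha
    · rw [← e2]
      exact H116.frob_symm h1 h2 h3 hℓ.ne_zero hg hσ' hz ha
  · intro z hz ha
    obtain ⟨σ', e1, e2⟩ := conv σ
    have hσ' : ∀ a, σ' (i a) = i (g a) := fun a => by rw [e1, hσ]
    rw [← e1]
    have h := H116.place_congr h1 h2 h3 (σ := σ') (m := 1) (map_mul σ')
      (fun x => by rw [pow_one]; exact hg x) hσ' hz ha
    rw [pow_one] at h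
    exact h.2

/-- **[ABS]** -/
theorem abs : P022.L3.AbsStmt :=
  abs_of (fun G N hN => fd G N hN) place
    (fun G n ℓ hℓ hB h2 O hO σ hσ f hf ha =>
      unr H619.L3.chev H964.L3.keyStmt G n ℓ hℓ hB h2 O hO σ hσ f hf ha)
    (fun G H n ℓ hℓ hB h2 O hO σ hσ _ f hf ha hD =>
      es_cl H619.L3.chev H964.L3.keyStmt G H n ℓ hℓ hB h2 O hO σ hσ f hf ha hD)
    (fun G H ℓ hℓ hB σ f => T_comm G H ℓ hℓ hB σ f)
    (fun G H ℓ hℓ hB σ x => D_comm G H ℓ hℓ hB σ x)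
    (fun G H ℓ hℓ hB x ha k => alg_of G (H.D ℓ) (H.Drat ℓ hℓ hB) x ha k)
    (fun G n hf σ => by
      have := hf
      exact H565.TwoG.act_two G n σ)

end Vale.Agent.P022.H916.L3
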